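import Vale.Agent.P011LL.Frm
import Vale.Agent.P011LE.Defs

/-!
P011 (helper30): the block `LAND`.
-/

open Module Matrix

set_option linter.all false

namespace Vale.Agent.P011LL

open Vale.Agent.P011LD Vale.Agent.P011LE Vale.Agent.P011LQ

section

variable {k K n : Type} [Field k] [Field K] [Algebra k K] [Fintype n] [DecidableEq n]
  {o : (K ≃ₐ[k] K) →* ℤˣ} {M : (K ≃ₐ[k] K) → GL n K} {s s' σ : K ≃ₐ[k] K} {x y : Matrix n n K}

theorem o_out (h : o s ≠ 1) : o s = -1 := (Int.units_eq_one_or _).resolve_left h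

theorem o_mul (h : o s ≠ 1) (h' : o s' ≠ 1) : o (s * s') = 1 := by
  rw [map_mul, o_out h, o_out h', neg_mul_neg, one_mul]

theorem o_div (h : o s ≠ 1) (h' : o s' ≠ 1) : o (s⁻¹ * s') = 1 :=
  o_mul (by rwa [map_inv, ne_eq, inv_eq_one]) h'

theorem mm (σ τ : K ≃ₐ[k] K) (x : Matrix n n K) : x.map ⇑(σ * τ) = (x.map τ).map σ := rfl

theorem pd_in (h : PD o M) (a : o σ = 1) (τ : K ≃ₐ[k] K) :
    ∃ z : K, (M σ).1 * (M τ).1.map σ = z • (M (σ * τ)).1 := by
  have := h.mul σ τ
  rw [st, if_pos a] at this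
  exact this

theorem pd_out (h : PD o M) (a : o s ≠ 1) (τ : K ≃ₐ[k] K) :
    ∃ z : K, (M s).1 * ((M τ)⁻¹.1.map s)ᵀ = z • (M (s * τ)).1 := by
  have := h.mul s τ
  rw [st, if_neg a] at this
  exact this

theorem tr_inv (g : GL n K) (s : K ≃ₐ[k] K) : (g⁻¹.1.map s)ᵀ * (g.1.map s)ᵀ = 1 := by
  rw [← transpose_mul, ← map_mul', Units.mul_inv, map_one', transpose_one]

theorem tr_law {g : GL n K} (s : K ≃ₐ[k] K) (h : x * g.1 = g.1 * y) :
    (x.map s)ᵀ * (g⁻¹.1.map s)ᵀ = (g⁻¹.1.map s)ᵀ * (y.map s)ᵀ := by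
  have : g⁻¹.1 * x = y * g⁻¹.1 := by
    rw [Units.inv_mul_eq_iff_eq_mul, ← mul_assoc, ← h, Units.mul_inv_cancel_right]
  rw [← transpose_mul, ← transpose_mul, ← map_mul', ← map_mul', this]

/-- `y` is the image of `x` under the involution -/
def Rl (M : (K ≃ₐ[k] K) → GL n K) (s : K ≃ₐ[k] K) (x y : Matrix n n K) : Prop :=
  y * (M s).1 = (M s).1 * (x.map s)ᵀ

variable [Nonempty n]

theorem Rl.all (h : PD o M) (hx : InB o M x) (a : o s ≠ 1) (r : Rl M s x y) (b : o s' ≠ 1) :
    Rl M s' x y := by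
  obtain ⟨z, e⟩ := pd_out h a (s⁻¹ * s')
  have t := tr_law s (hx _ (o_div a b))
  rw [← mm] at t
  rw [mul_inv_cancel_left] at e t
  have z0 : z ≠ 0 := fun c => (M s).ne_zero (by
    rw [← mul_one (M s).1, ← tr_inv (M (s⁻¹ * s')) s, ← mul_assoc, e, c, zero_smul, zero_mul])
  refine smul_right_injective _ z0 ?_
  show z • (y * _) = z • (_ * _)
  rw [← mul_smul_comm, ← smul_mul_assoc, ← e, ← mul_assoc, r, mul_assoc, t, mul_assoc]

omit [Nonempty n] in
theorem rl_mem (h : PD o M) (a : o s ≠ 1) (r : ∀ s, o s ≠ 1 → Rl M s x y) : InB o M y := by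
  intro σ b
  obtain ⟨z, e⟩ := pd_in h b s
  have u : IsUnit ((M s).1.map σ) := (M s).isUnit.map (σ : K →+* K).mapMatrix
  refine u.mul_right_cancel ?_
  rw [mul_assoc, e, mul_smul_comm, r _ (by rwa [map_mul, b, one_mul]), ← smul_mul_assoc, ← e,
    mul_assoc, mul_assoc, ← map_mul', r s a, map_mul']
  rfl

omit [Nonempty n] in
theorem Rl.symm (h : PD o M) (hx : InB o M x) (a : o s ≠ 1) (r : Rl M s x y) : Rl M s y x := by
  obtain ⟨z, e⟩ := pd_out h a s
  have t := tr_law s r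
  have u : IsUnit ((M s)⁻¹.1.map s)ᵀ := IsUnit.of_mul_eq_one _ (tr_inv _ _)
  refine u.mul_right_cancel ?_
  rw [mul_assoc, e, mul_smul_comm, hx _ (o_mul a a), ← smul_mul_assoc, ← e, mul_assoc, mul_assoc, t]
  rfl

omit [Nonempty n] in
theorem Rl.uniq {y' : Matrix n n K} (r : Rl M s x y) (r' : Rl M s x y') : y = y' :=
  (M s).isUnit.mul_right_cancel (Eq.trans r (Eq.symm r'))

variable (o M) in
/-- the algebra of the descent data -/
def alg : Subalgebra (IntermediateField.fixedField o.ker) (Matrix n n K) where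
  carrier := {x | InB o M x}
  mul_mem' := fun {x y} a b σ c => by
    rw [map_mul', ← mul_assoc, ← a σ c, mul_assoc, b σ c, mul_assoc]
  add_mem' := fun {x y} a b σ c => by
    rw [Matrix.map_add _ (map_add σ), mul_add, add_mul, a σ c, b σ c]
  algebraMap_mem' c σ a := by
    have e : σ c.1 = c.1 := c.2 ⟨σ, a⟩
    rw [Algebra.algebraMap_eq_smul_one, IntermediateField.smul_def, P011LD.map_smul', map_one', e]
    simp

theorem frm [Algebra.IsAlgebraic k K] (h : PD o M) : Frm (alg o M) := by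
  have S := sl_hom (Γ := o.ker) M M (fun σ a τ _ => (pd_in h a τ).imp fun _ e => ⟨e, e⟩)
    (h.cont.elim fun T e => ⟨T, fun σ _ a => (e σ trivial a).2.imp fun _ e => ⟨e, e⟩⟩)
  obtain ⟨b, hb⟩ := S.basis (ι := n × n) (by simp [Module.finrank_matrix])
  refine ⟨b, fun i σ a => ?_, fun x hx i => ⟨⟨b.repr x i, fun σ => ?_⟩, rfl⟩⟩
  · conv_lhs => rw [← hb i σ a]
    rw [Matrix.mul_assoc, Units.inv_mul, Matrix.mul_one]
  · have h1 : (M σ).1 * x.map σ.1 * (M σ)⁻¹.1 = x := by
      rw [← hx σ σ.2, Matrix.mul_assoc, Units.mul_inv, Matrix.mul_one]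
    have h2 := S.sum σ.2 Finset.univ fun i => b.repr x i • b i
    simp only [b.sum_repr, h1, S.smul _ σ.2, hb _ _ σ.2] at h2
    show σ.1 _ = _
    conv_rhs => rw [h2]
    rw [b.repr_sum_self]

end

/-- **Landherr** -/
theorem land : LAND := by
  intro k K _ _ _ _ _ n _ _ o M h ⟨s0, h0⟩ u u' hu hu' d' ⟨z, z0, zf, hz⟩ hs
  rcases isEmpty_or_nonempty n with _ | _
  · exact ⟨1, fun _ _ => Subsingleton.elim _ _, fun _ _ => Subsingleton.elim _ _⟩
  have : IsAlgClosed K := IsAlgClosure.isAlgClosed k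
  have : CharZero K := charZero_of_injective_algebraMap (algebraMap k K).injective
  obtain ⟨θ, θ0, hθ⟩ := h90_one (Γ := ⊤) (fun σ => ((o σ : ℤ) : K))
    (fun σ _ τ _ => by simp) (h.cont.imp fun σ _ a => by simp [a.1])
  let F := IntermediateField.fixedField o.ker
  have mem : ∀ {x}, (∀ σ, o σ = 1 → σ x = x) → x ∈ F := fun a σ => a σ.1 σ.2
  have fx : ∀ (x : F) σ, o σ = 1 → σ x.1 = x.1 := fun x σ a => x.2 ⟨σ, a⟩
  have out : ∀ (x : F) s, o s ≠ 1 → s x.1 = s0 x.1 := fun x s a => by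
    rw [← fx x _ (o_div a h0), ← AlgEquiv.mul_apply, mul_inv_cancel_left, fx x _ (o_div a h0)]
  have sm : ∀ x : F, s0 x.1 ∈ F := fun x => mem fun σ a =>
    out x (σ * s0) (by rwa [map_mul, a, one_mul])
  letI : StarRing F :=
    { star := fun x => ⟨s0 x.1, sm x⟩
      star_involutive := fun x => Subtype.ext (fx x _ (o_mul h0 h0))
      star_mul := fun x y => Subtype.ext ((map_mul s0 x.1 y.1).trans (mul_comm _ _))
      star_add := fun x y => Subtype.ext (map_add s0 x.1 y.1) }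
  have sv : ∀ x : F, (star x).1 = s0 x.1 := fun _ => rfl
  let ϑ : F := ⟨θ, mem fun σ a => by simpa [a] using hθ σ trivial⟩
  have sθ : s0 θ = -θ := by simpa [o_out h0, neg_eq_iff_eq_neg] using hθ s0 trivial
  have sϑ : star ϑ = -ϑ := Subtype.ext sθ
  have ϑ0 : ϑ ≠ 0 := fun c => θ0 (congrArg Subtype.val c)
  have kf : ∀ x : F, star x = x → ∃ c : k, algebraMap k F c = x := fun x a => by
    obtain ⟨c, e⟩ := fixed_top (k := k) (c := x.1) fun σ => by
      by_cases b : o σ = 1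
      exacts [fx x σ b, (out x σ b).trans (congrArg Subtype.val a)]
    exact ⟨c, Subtype.ext e⟩
  have : FiniteDimensional k F := Module.Finite.of_surjective
    ((LinearMap.toSpanSingleton k F 1).coprod (LinearMap.toSpanSingleton k F ϑ)) fun x => by
      obtain ⟨a, ea⟩ := kf ((x + star x) / 2) (by
        rw [star_div₀, star_add, star_star, star_ofNat, add_comm])
      obtain ⟨b, eb⟩ := kf ((x - star x) / 2 / ϑ) (by
        rw [star_div₀, star_div₀, star_sub, star_star, star_ofNat, sϑ, div_neg, ← neg_div, ← neg_div,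
          neg_sub])
      refine ⟨(a, b), ?_⟩
      simp only [LinearMap.coprod_apply, LinearMap.toSpanSingleton_apply, Algebra.smul_def, ea, eb,
        div_mul_cancel₀ _ ϑ0]
      ring
  have : NumberField F := NumberField.of_module_finite k F
  have r0 : ∀ x : Matrix n n K, Rl M s0 x ((M s0).1 * (x.map s0)ᵀ * (M s0)⁻¹.1) := fun x =>
    Units.inv_mul_cancel_right _ _
  let τ : alg o M → alg o M := fun x => ⟨_, rl_mem h h0 fun s a => (r0 x.1).all h x.2 h0 a⟩
  have rt : ∀ (x : alg o M) s, o s ≠ 1 → Rl M s x.1 (τ x).1 := fun x s a => (r0 x.1).all h x.2 h0 a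
  have te : ∀ x y : alg o M, Rl M s0 x.1 y.1 → τ x = y := fun x y r => Subtype.ext ((r0 _).uniq r)
  obtain ⟨t, t', a, b⟩ := land_frm (frm h) ϑ0 sϑ (τ := τ) ⟨fun x y => te _ _ (by
      show (_ + _) * _ = _ * ((x.1 + y.1).map s0)ᵀ
      rw [add_mul, rt x _ h0, rt y _ h0, Matrix.map_add _ (map_add s0), transpose_add, mul_add]),
    fun x y => te _ _ (by
      show _ * _ * _ = _ * ((x.1 * y.1).map s0)ᵀ
      rw [mul_assoc, rt x _ h0, ← mul_assoc, rt y _ h0, map_mul', transpose_mul, mul_assoc]),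
    fun x => te _ _ ((rt x _ h0).symm h x.2 h0), fun c x => te _ _ (by
      show (s0 c.1 • (τ x).1) * _ = _ * ((c.1 • x.1).map s0)ᵀ
      rw [smul_mul_assoc, rt x _ h0, P011LD.map_smul', transpose_smul, mul_smul_comm])⟩
    (fun x => ⟨⟨x.1.det, mem fun σ a => by
      have := congrArg det (x.2 σ a)
      rw [det_mul, det_mul, mul_comm] at this
      exact ((σ : K →+* K).map_det _).trans (mul_left_cancel₀ (M σ).det_ne_zero this).symm⟩,
      rfl, by
      have : det ((τ x).1 * (M s0).1) = det ((M s0).1 * (x.1.map s0)ᵀ) := congrArg det (rt x _ h0)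
      rw [det_mul (τ x).1, det_mul (M s0).1, mul_comm, det_transpose] at this
      exact (mul_left_cancel₀ (M s0).det_ne_zero this).trans ((s0 : K →+* K).map_det _).symm⟩)
    (u := ⟨u, hu.1⟩) (u' := ⟨u', hu'.1⟩) (te _ _ (hu.2 s0 h0)) (te _ _ (hu'.2 s0 h0)) d'
    ⟨⟨z, mem zf⟩, fun c => z0 (congrArg Subtype.val c), hz s0 h0⟩ fun s e => by
      letI := s.toAlgebra
      let w : K →ₐ[F] ℂ := IsAlgClosed.lift
      letI := w.toRingHom.toAlgebra
      letI := (w.toRingHom.comp (algebraMap k K)).toAlgebra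
      have : IsScalarTower k K ℂ := IsScalarTower.of_algebraMap_eq fun _ => rfl
      let φ : ℂ →ₐ[k] ℂ := ⟨starRingEnd ℂ, fun c => by
        have a := e (algebraMap k F c)
        rw [show star (algebraMap k F c) = algebraMap k F c from Subtype.ext (s0.commutes c)] at a
        have b := w.commutes (algebraMap k F c)
        exact (congrArg star b).trans (a.symm.trans b.symm)⟩
      have c : Cj w.toRingHom (φ.restrictNormal' K) := fun x => φ.restrictNormal_commutes K x
      have oc : o (φ.restrictNormal' K) ≠ 1 := fun a => by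
        have p := c θ
        rw [fx ϑ _ a] at p
        have q := e ϑ
        rw [sϑ, map_neg] at q
        have r : w.toRingHom θ = s ϑ := w.commutes ϑ
        rw [r, ← q] at p
        exact ϑ0 ((_root_.map_eq_zero s).1 (self_eq_neg.1 p))
      obtain ⟨Q, a, b⟩ := hs _ _ c oc
      refine ⟨w.toRingHom, (M (φ.restrictNormal' K)).1.map w.toRingHom, w.commutes,
        (M _).isUnit.map w.toRingHom.mapMatrix, fun x => ?_, Q, a, by
          rwa [← Matrix.map_mul, ← Matrix.map_mul]⟩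
      rw [← Matrix.map_mul, rt x _ oc, Matrix.map_mul]
      congr 1
      exact Matrix.ext fun i j => c _
  have a' : t.1 * t'.1 = 1 := congrArg Subtype.val a
  refine ⟨⟨t.1, t'.1, a', mul_eq_one_comm.1 a'⟩, t.2, fun s c => ?_⟩
  have b' : u = t.1 * u' * (τ t).1 := congrArg Subtype.val b
  rw [b', mul_assoc, rt t s c]
  simp only [mul_assoc]

end Vale.Agent.P011LL
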