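import Vale.Agent.P011LL.Sg

/-!
P011 (helper30): the theorem of Landherr for hermitian matrices over a division algebra.
-/

open Module Matrix Filter
open scoped ComplexOrder Topology

set_option linter.all false

namespace Vale.Agent.P011LL

open Vale.Agent.P011.RP Vale.Agent.P011.Three Vale.Agent.P011S
open Vale.Agent.P011.T2 (HF)

section alg

variable {D : Type} [DivisionRing D] [StarRing D] {m : ℕ}

/-- block diagonal matrices -/
def bd (e : D) (X : Matrix (Fin m) (Fin m) D) : Matrix (Fin (m + 1)) (Fin (m + 1)) D :=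
  of (Fin.cons (Fin.cons e 0) fun i => Fin.cons 0 (X i))

theorem bd_mul (e e' : D) (X X' : Matrix (Fin m) (Fin m) D) :
    bd e X * bd e' X' = bd (e * e') (X * X') := by
  ext i j
  refine Fin.cases ?_ (fun i => ?_) i <;> refine Fin.cases ?_ (fun j => ?_) j <;>
    simp [bd, mul_apply, Fin.sum_univ_succ]

theorem bd_conj (e : D) (X : Matrix (Fin m) (Fin m) D) : (bd e X)ᴴ = bd (star e) Xᴴ := by
  ext i j
  refine Fin.cases ?_ (fun i => ?_) i <;> refine Fin.cases ?_ (fun j => ?_) j <;> simp [bd]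

theorem bd_diag (e : D) (d : Fin m → D) : bd e (diagonal d) = diagonal (Fin.cons e d) := by
  ext i j
  refine Fin.cases ?_ (fun i => ?_) i <;> refine Fin.cases ?_ (fun j => ?_) j <;>
    simp [bd, diagonal_apply, Fin.succ_ne_zero, (Fin.succ_ne_zero _).symm]

theorem bd_one : bd (1 : D) (1 : Matrix (Fin m) (Fin m) D) = 1 := by
  rw [← diagonal_one, bd_diag, ← diagonal_one]
  congr 1
  funext i
  refine Fin.cases rfl (fun _ => rfl) i

theorem Cg.bd (e : D) {X Y : Matrix (Fin m) (Fin m) D} (h : Cg X Y) : Cg (bd e X) (bd e Y) := by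
  obtain ⟨_, ⟨u, rfl⟩, rfl⟩ := h
  refine ⟨P011LL.bd 1 u.1, IsUnit.of_mul_eq_one (P011LL.bd 1 u⁻¹.1) ?_, ?_⟩
  · rw [bd_mul, one_mul, Units.mul_inv, bd_one]
  · rw [bd_conj, bd_mul, bd_mul, star_one, one_mul, mul_one]

theorem gram (H T : Matrix (Fin m) (Fin m) D) (i j : Fin m) :
    (T * H * Tᴴ) i j = rowH H (T i) (T j) := by
  simp only [mul_apply, rowH, conjTranspose_apply, Finset.sum_mul]
  exact Finset.sum_comm

theorem nondeg {H : Matrix (Fin m) (Fin m) D} (u : IsUnit H) {x : Fin m → D} (hx : x ≠ 0) :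
    ∃ y, rowH H x y ≠ 0 := by
  by_contra! c
  refine hx (vecMul_injective_of_isUnit u (funext fun j => ?_ : x ᵥ* H = 0 ᵥ* H))
  simpa [rowH, Pi.single_apply, apply_ite star, vecMul, dotProduct] using c (Pi.single j 1)

theorem split {H : Matrix (Fin (m + 1)) (Fin (m + 1)) D} (hH : Hᴴ = H) (u : IsUnit H)
    {x : Fin (m + 1) → D} (hx : rowH H x x ≠ 0) :
    ∃ X : Matrix (Fin m) (Fin m) D, Xᴴ = X ∧ IsUnit X ∧ Cg H (bd (rowH H x x) X) := by
  let B := rowF H hH
  have r : finrank D (LinearMap.ker (B.lin x)) = m := by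
    have a := LinearMap.finrank_range_add_finrank_ker (B.lin x)
    rw [LinearMap.range_eq_top.2 fun c => ⟨(c * (rowH H x x)⁻¹) • x, by
      rw [HF.lin_apply, B.smul_left]; exact inv_mul_cancel_right₀ hx c⟩, finrank_top, finrank_self,
      finrank_fin_fun] at a
    omega
  let b := finBasisOfFinrankEq D _ r
  let T : Matrix (Fin (m + 1)) (Fin (m + 1)) D := of (Fin.cons x fun i => (b i).1)
  have k : ∀ v : Fin (m + 1) → D, v - (B.h v x * (rowH H x x)⁻¹) • x ∈ LinearMap.ker (B.lin x) :=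
    fun v => by
      rw [LinearMap.mem_ker, HF.lin_apply, B.sub_left, B.smul_left]
      exact sub_eq_zero.2 (inv_mul_cancel_right₀ hx _).symm
  have uT : IsUnit T := by
    refine IsUnit.of_mul_eq_one_right (of fun j => Fin.cons (B.h (Pi.single j 1) x * (rowH H x x)⁻¹)
      fun i => b.repr ⟨_, k (Pi.single j 1)⟩ i) (Matrix.ext fun i j => ?_)
    have := congrFun (congrArg Subtype.val (b.sum_repr ⟨_, k (Pi.single i 1)⟩)) j
    simp only [Submodule.coe_sum, Submodule.coe_smul, Finset.sum_apply, Pi.smul_apply, smul_eq_mul,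
      Pi.sub_apply] at this
    simp only [mul_apply, Fin.sum_univ_succ, of_apply, Fin.cons_zero, Fin.cons_succ, T, this,
      add_sub_cancel, one_apply, Pi.single_apply, eq_comm]
  have c : Cg H (T * H * Tᴴ) := ⟨T, uT, rfl⟩
  have z : ∀ i, rowH H (b i).1 x = 0 := fun i => (b i).2
  have e : T * H * Tᴴ = bd (rowH H x x) ((T * H * Tᴴ).submatrix Fin.succ Fin.succ) := by
    ext i j
    refine Fin.cases ?_ (fun i => ?_) i <;> refine Fin.cases ?_ (fun j => ?_) j
    · exact gram _ _ _ _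
    · exact (gram _ _ _ _).trans ((B.star_h _ _).symm.trans (star_eq_zero.2 (z j)))
    · exact (gram _ _ _ _).trans (z i)
    · rfl
  refine ⟨_, ?_, ?_, e ▸ c⟩
  · rw [conjTranspose_submatrix, c.herm hH]
  · obtain ⟨Y, hY⟩ := (c.unit u).exists_right_inv
    refine IsUnit.of_mul_eq_one (Y.submatrix Fin.succ Fin.succ) (Matrix.ext fun i j => ?_)
    have := congrFun (congrFun hY i.succ) j.succ
    rw [e] at this
    simpa [bd, mul_apply, Fin.sum_univ_succ, one_apply] using this

/-- symmetric nonzero entries -/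
def Sy (d : Fin m → D) : Prop := ∀ i, star (d i) = d i ∧ d i ≠ 0

theorem Sy.herm {d : Fin m → D} (h : Sy d) : (diagonal d)ᴴ = diagonal d := by
  rw [diagonal_conjTranspose]
  exact congrArg diagonal (funext fun i => (h i).1)

theorem Sy.unit {d : Fin m → D} (h : Sy d) : IsUnit (diagonal d) :=
  IsUnit.of_mul_eq_one (diagonal fun i => (d i)⁻¹) (by
    rw [diagonal_mul_diagonal, ← diagonal_one]
    exact congrArg diagonal (funext fun i => mul_inv_cancel₀ (h i).2))

theorem Sy.cons {e : D} (he : star e = e) (h0 : e ≠ 0) {d : Fin m → D} (h : Sy d) :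
    Sy (Fin.cons e d : Fin (m + 1) → D) := fun i => Fin.cases ⟨he, h0⟩ h i

variable [CharZero D]

theorem universal {H : Matrix (Fin m) (Fin m) D} (hH : Hᴴ = H) {x y : Fin m → D}
    (hx : rowH H x x = 0) (hy : rowH H x y ≠ 0) {e : D} (he : star e = e) :
    ∃ z, rowH H z z = e := by
  let B := rowF H hH
  have h2 : (2 : D) ≠ 0 := two_ne_zero
  let c := 2⁻¹ * (e - B.h y y)
  have sc : star c = c := by
    rw [star_mul, star_sub, he, B.star_h, star_inv₀, star_ofNat]
    exact ((Nat.cast_commute 2 _).inv_left₀.eq).symm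
  refine ⟨(c * (B.h x y)⁻¹) • x + y, ?_⟩
  show B.h _ _ = e
  rw [B.add_left, B.add_right, B.add_right, B.smul_left, B.smul_right, show B.h x x = 0 from hx,
    ← B.star_h ((c * (B.h x y)⁻¹) • x) y, B.smul_left, inv_mul_cancel_right₀ (show B.h x y ≠ 0 from hy), sc, zero_mul,
    mul_zero, zero_add, ← add_assoc, ← two_mul, mul_inv_cancel_left₀ h2, sub_add_cancel]

theorem diag : ∀ (m : ℕ) (H : Matrix (Fin m) (Fin m) D), Hᴴ = H → IsUnit H →
    ∃ d, Sy d ∧ Cg H (diagonal d)
  | 0, H, _, _ => ⟨fun _ => 1, fun i => i.elim0, 1, isUnit_one, Subsingleton.elim _ _⟩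
  | m + 1, H, hH, u => by
    obtain ⟨x, hx⟩ : ∃ x, rowH H x x ≠ 0 := by
      obtain ⟨y, hy⟩ := nondeg u (x := fun _ => 1) fun h => one_ne_zero (congrFun h 0)
      by_cases c : rowH H (fun _ => 1) (fun _ => 1) = 0
      · obtain ⟨z, hz⟩ := universal hH c hy (star_one D)
        exact ⟨z, hz ▸ one_ne_zero⟩
      · exact ⟨_, c⟩
    obtain ⟨X, a, b, c⟩ := split hH u hx
    obtain ⟨d, e, f⟩ := diag m X a b
    exact ⟨_, Sy.cons ((rowF H hH).star_h x x) hx e, bd_diag _ d ▸ c.trans (f.bd _)⟩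

end alg

section num

variable {K D : Type} [Field K] [NumberField K] [StarRing K] [DivisionRing D] [StarRing D]
  [Algebra K D] [StarModule K D] [FiniteDimensional K D] [Algebra.IsCentral K D] {n m : ℕ}

theorem gam_cg (R : RData K D n) {H H' : Matrix (Fin m) (Fin m) D} (h : Cg H H') :
    Cg (R.Gam H) (R.Gam H') := by
  obtain ⟨T, u, rfl⟩ := h
  refine ⟨R.Um T, u.map ((compRingEquiv (Fin m) (Fin n) ℂ).toRingHom.comp R.f.mapMatrix),
    Matrix.ext fun x y => (R.Um_gram H T x y).trans ?_⟩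
  rw [R.Gam_apply, gram]

theorem np_gam (R : RData K D n) {d : Fin m → D} (h : Sy d) :
    np (R.Gam (diagonal d)) = ∑ i, np (R.f (d i) * R.A) := by
  rw [← np_diag (fun i => R.isHermitian (h i).1) fun i => (f_unit' R (h i).2).mul R.unit]
  congr 1
  ext ⟨i, p⟩ ⟨j, q⟩
  by_cases c : i = j <;> simp [RData.Gam, cm, diagonal_apply, c]

variable (hK : ∃ k : K, star k ≠ k) (hn : 0 < n) (hdeg : finrank K D = n ^ 2)
include hK hn hdeg

/-- representation of the first coefficient -/
theorem rep {H H' : Matrix (Fin (m + 2)) (Fin (m + 2)) D} (hH : Hᴴ = H) (u : IsUnit H)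
    (he : star (H' 0 0) = H' 0 0) (h0 : H' 0 0 ≠ 0)
    (hs : ∀ R : RData K D n, Cg (R.Gam H) (R.Gam H')) : ∃ x, rowH H x x = H' 0 0 := by
  have : CharZero D := charZero_of_injective_algebraMap (algebraMap K D).injective
  let B := rowF H hH
  by_cases hB : ∀ x, B.h x x = 0 → x = 0
  swap
  · push Not at hB
    obtain ⟨x, a, b⟩ := hB
    obtain ⟨y, c⟩ := nondeg u b
    exact universal hH a c he
  obtain ⟨ι, _, R, hc, hd⟩ := exists_family (D := D) hK hn hdeg
  choose Q hQ e using fun i => hs (R i)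
  have ue := fun i => (f_unit' (R i) h0).mul (R i).unit
  have h2 : ∀ i, ∃ δ : ℝ, 0 < δ ∧ ∀ U : Matrix (Fin n) (Fin (m + 2) × Fin n) ℂ,
      (∀ a b, ‖U a b - (Q i).submatrix (fun p => (0, p)) id a b‖ < δ) →
        Cg (U * (R i).Gam H * Uᴴ) ((R i).f (H' 0 0) * (R i).A) := fun i => by
    have c : Continuous fun U : Matrix (Fin n) (Fin (m + 2) × Fin n) ℂ => U * (R i).Gam H * Uᴴ := by
      fun_prop
    have t := c.tendsto ((Q i).submatrix (fun p => (0, p)) id)
    rw [sub_gram, e] at t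
    exact near_ev ((t.eventually (cg_ev ((R i).isHermitian he) (ue i))).mono fun U a =>
      a (isHermitian_mul_mul_conjTranspose _ ((R i).Gam_herm hH)))
  choose δ hδ hU using h2
  obtain ⟨w, hw⟩ := exists_row hd _ hδ
  have k : ∀ i, Cg ((R i).f (rowH H w w) * (R i).A) ((R i).f (H' 0 0) * (R i).A) := fun i =>
    U1_gram (R i) H w w ▸ hU i _ (hw i)
  obtain ⟨x, a, b⟩ : ∃ x, x ≠ 0 ∧ ∀ i, (R i).CongAt (B.h x x) (H' 0 0) := by
    by_cases c : w = 0
    · refine ⟨fun _ => 1, fun h => one_ne_zero (congrFun h 0), fun i => ?_⟩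
      have v := (k i).symm.unit (ue i)
      rw [c, show rowH H 0 0 = 0 from B.zero_left 0, map_zero, zero_mul] at v
      haveI : Nonempty (Fin n) := ⟨⟨0, hn⟩⟩
      exact absurd v not_isUnit_zero
    · exact ⟨w, c, k⟩
  exact P011.Even.hasR2 hK hn hdeg _ B hB (by rw [finrank_fin_fun]; omega) x a _ he h0
    (of_family hn hdeg hc b)

theorem agree : ∀ (m : ℕ) (d d' : Fin (m + 1) → D), Sy d → Sy d' →
    (∀ R : RData K D n, ∑ i, np (R.f (d i) * R.A) = ∑ i, np (R.f (d' i) * R.A)) →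
    ∃ c, Sy c ∧ Cg (diagonal d) (diagonal c) ∧ ∀ i : Fin m, c i.castSucc = d' i.castSucc
  | 0, d, _, h, _, _ => ⟨d, h, Cg.refl _, fun i => i.elim0⟩
  | m + 1, d, d', h, h', s => by
    have : CharZero D := charZero_of_injective_algebraMap (algebraMap K D).injective
    obtain ⟨x, hx⟩ := rep hK hn hdeg h.herm h.unit (H' := diagonal d') (by simpa using (h' 0).1)
      (by simpa using (h' 0).2) fun R => cg_of_np (R.Gam_herm h.herm) (R.Gam_unit h.unit)
        (R.Gam_herm h'.herm) (R.Gam_unit h'.unit) (by rw [np_gam R h, np_gam R h', s])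
    rw [diagonal_apply_eq] at hx
    obtain ⟨X, a, b, c⟩ := split h.herm h.unit (x := x) (hx ▸ (h' 0).2)
    obtain ⟨d1, e, f⟩ := diag _ X a b
    have g := c.trans (f.bd _)
    rw [hx, bd_diag] at g
    obtain ⟨c1, p, q, r⟩ := agree m d1 (fun i => d' i.succ) e (fun i => h' _) fun R => by
      have t := (gam_cg R g).np
      rw [np_gam R h, np_gam R (Sy.cons (h' 0).1 (h' 0).2 e), s, Fin.sum_univ_succ,
        Fin.sum_univ_succ (f := fun i => np (R.f ((Fin.cons (d' 0) d1 : Fin (m + 2) → D) i) * R.A))] at t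
      exact (Nat.add_left_cancel t).symm
    refine ⟨_, Sy.cons (h' 0).1 (h' 0).2 p, g.trans (by
      rw [← bd_diag, ← bd_diag]; exact q.bd _), fun i => ?_⟩
    refine Fin.cases rfl (fun i => ?_) i
    exact r i

omit hK hn hdeg in
theorem nrd_diag {F : Type} [Field F] [Algebra K F] (f : D →ₐ[K] Matrix (Fin n) (Fin n) F)
    (d : Fin m → D) : redNorm f (Fin m) (diagonal d) = ∏ i, (f (d i)).det := by
  rw [← det_blockDiagonal, ← det_submatrix_equiv_self (Equiv.prodComm (Fin m) (Fin n))]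
  refine congrArg det (Matrix.ext fun ⟨i, p⟩ ⟨j, q⟩ => ?_)
  show f (diagonal d i j) p q = _
  by_cases c : i = j <;> simp [blockDiagonal_apply, diagonal_apply, c]

/-- **Landherr** -/
theorem landM {F : Type} [Field F] [Algebra K F] (f : D →ₐ[K] Matrix (Fin n) (Fin n) F)
    (ns : ∀ T : Matrix (Fin m) (Fin m) D, ∃ z : K, redNorm f _ T = algebraMap K F z ∧
      redNorm f _ Tᴴ = algebraMap K F (star z))
    {H H' : Matrix (Fin m) (Fin m) D} (hH : Hᴴ = H) (u : IsUnit H) (hH' : H'ᴴ = H') (u' : IsUnit H')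
    (hd : ∃ z : K, z ≠ 0 ∧ redNorm f _ H' = algebraMap K F (z * star z) * redNorm f _ H)
    (hs : ∀ R : RData K D n, Cg (R.Gam H) (R.Gam H')) : Cg H H' := by
  have : CharZero D := charZero_of_injective_algebraMap (algebraMap K D).injective
  rcases m with _ | m
  · exact ⟨1, isUnit_one, Subsingleton.elim _ _⟩
  obtain ⟨d, a, b⟩ := diag _ H hH u
  obtain ⟨d', a', b'⟩ := diag _ H' hH' u'
  have s : ∀ {c}, Sy c → Cg H (diagonal c) → ∀ R : RData K D n,
      ∑ i, np (R.f (c i) * R.A) = ∑ i, np (R.f (d' i) * R.A) := fun p q R => by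
    rw [← np_gam R p, ← np_gam R a', ← (gam_cg R q).np, ← (gam_cg R b').np, (hs R).np]
  obtain ⟨c, p, q, r⟩ := agree hK hn hdeg m d d' a a' (s a b)
  have q' := b.trans q
  have nz : ∀ {X Y : Matrix (Fin (m + 1)) (Fin (m + 1)) D}, Cg X Y → ∃ z : K, z ≠ 0 ∧
      redNorm f _ Y = algebraMap K F (z * star z) * redNorm f _ X := fun ⟨T, u, e⟩ => by
    obtain ⟨z, v, w⟩ := ns T
    refine ⟨z, fun h => (u.map (redNorm f _)).ne_zero (by rw [v, h, map_zero]), ?_⟩
    rw [← e, map_mul, map_mul, v, w, map_mul, mul_right_comm]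
  obtain ⟨t, t0, ht⟩ := P011.Even.hasR1 hK hn hdeg F f _ _ (p (Fin.last m)).1 (a' (Fin.last m)).1
    (p _).2 (a' _).2 (by
      obtain ⟨z1, n1, e1⟩ := nz q'.symm
      obtain ⟨z2, n2, e2⟩ := hd
      obtain ⟨z3, n3, e3⟩ := nz b'
      refine ⟨z1 * z2 * z3, mul_ne_zero (mul_ne_zero n1 n2) n3, mul_left_cancel₀
        (Finset.prod_ne_zero_iff.2 fun (i : Fin m) (_ : i ∈ Finset.univ) =>
          ((isUnit_iff_isUnit_det _).1 ((a' i.castSucc).2.isUnit.map f)).ne_zero) ?_⟩
      rw [e2, e1, nrd_diag, nrd_diag, Fin.prod_univ_castSucc, Fin.prod_univ_castSucc] at e3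
      simp only [r] at e3
      rw [e3]
      simp only [star_mul', map_mul]
      ring) fun R => cg_of_np (R.isHermitian (p _).1) ((f_unit' R (p _).2).mul R.unit)
        (R.isHermitian (a' _).1) ((f_unit' R (a' _).2).mul R.unit) (by
      have := s p q' R
      rw [Fin.sum_univ_castSucc, Fin.sum_univ_castSucc] at this
      simp only [r] at this
      exact Nat.add_left_cancel this)
  refine q'.trans (Cg.trans ⟨diagonal (Fin.snoc (fun _ => 1) t), IsUnit.of_mul_eq_one
    (diagonal (Fin.snoc (fun _ => 1) t⁻¹)) ?_, ?_⟩ b'.symm)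
  · rw [diagonal_mul_diagonal, ← diagonal_one]
    refine congrArg diagonal (funext fun i => Fin.lastCases ?_ (fun i => ?_) i) <;> simp [t0]
  · rw [diagonal_conjTranspose, diagonal_mul_diagonal, diagonal_mul_diagonal]
    refine congrArg diagonal (funext fun i => Fin.lastCases ?_ (fun i => ?_) i) <;> simp [ht, r]

end num

end Vale.Agent.P011LL
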