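import Mathlib.LinearAlgebra.Matrix.ConjTranspose
import Mathlib.Data.Matrix.Basis
import Mathlib.LinearAlgebra.FiniteDimensional.Basic
import Mathlib.Algebra.Star.Module

/-!
P011 (helper30): a unitary involution of a matrix algebra over a division algebra is the adjoint
involution of a hermitian matrix.
-/

open Matrix

set_option linter.all false

namespace Vale.Agent.P011LL

variable {K D ι : Type} [Field K] [StarRing K] [DivisionRing D] [Algebra K D] [Fintype ι]
  [DecidableEq ι]

/-- semilinear involutions -/
structure Inv (K : Type) {B : Type} [Field K] [StarRing K] [Ring B] [Algebra K B] (τ : B → B) :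
    Prop where
  add : ∀ x y, τ (x + y) = τ x + τ y
  mul : ∀ x y, τ (x * y) = τ y * τ x
  inv : ∀ x, τ (τ x) = x
  smul : ∀ (c : K) x, τ (c • x) = star c • τ x

theorem ss (p q r : ι) (x y : D) :
    (single p q x * single q r y : Matrix ι ι D) = single p r (x * y) :=
  single_mul_single_same _ _ _ _ _

theorem corner (o : ι) {X : Matrix ι ι D} (a : single o o 1 * X = X) (b : X * single o o 1 = X) :
    single o o (X o o) = X := by
  conv_rhs => rw [← a, ← b, ← mul_assoc, single_mul_mul_single, one_mul, mul_one]

theorem row_sum (o p : ι) (Y : Matrix ι ι D) :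
    ∑ l, (single o o (Y p l) * single o l 1 : Matrix ι ι D) = single o p 1 * Y := by
  ext i j
  simp only [ss, mul_one, Matrix.sum_apply]
  by_cases c : i = o
  · subst c
    rw [single_mul_apply_same, one_mul]
    simp [single_apply]
  · rw [single_mul_apply_of_ne _ _ _ _ _ c]
    simp [single_apply, Ne.symm c]

theorem single_inj (o : ι) {x y : D} (h : single o o x = single o o y) : x = y := by
  simpa using congrFun (congrFun h o) o

theorem ex_star [CharZero K] [Nonempty ι] {θ : K} (h0 : θ ≠ 0) (hθ : star θ = -θ)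
    {τ : Matrix ι ι D → Matrix ι ι D} (h : Inv K τ) :
    ∃ (_ : StarRing D) (_ : StarModule K D) (H : Matrix ι ι D), Hᴴ = H ∧ IsUnit H ∧
      ∀ X, τ X * H = H * Xᴴ := by
  obtain ⟨o⟩ := ‹Nonempty ι›
  let t : Matrix ι ι D →+ Matrix ι ι D := AddMonoidHom.mk' τ h.add
  have inj : Function.Injective τ := Function.LeftInverse.injective h.inv
  have z : τ 0 = 0 := t.map_zero
  set E : Matrix ι ι D := single o o 1 with hE
  have EE : E * E = E := by rw [hE, single_mul_single_same, mul_one]
  have E0 : τ E ≠ 0 := fun c => one_ne_zero (single_inj o ((inj (c.trans z.symm)).trans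
    (single_zero o o).symm))
  obtain ⟨a, a0, as, a1, a2⟩ : ∃ a, a ≠ 0 ∧ τ a = a ∧ τ E * a = a ∧ a * E = a := by
    obtain ⟨p, q, c⟩ : ∃ p q, τ E p q ≠ 0 := by
      by_contra! c
      exact E0 (Matrix.ext c)
    let y := τ E * single q o 1
    have y0 : y ≠ 0 := fun e => c (by simpa [y] using congrFun (congrFun e p) o)
    have y1 : τ E * y = y := by rw [← mul_assoc, ← h.mul, EE]
    have y2 : y * E = y := by rw [mul_assoc, hE, single_mul_single_same, mul_one]
    have y3 : τ E * τ y = τ y := by rw [← h.mul, y2]
    have y4 : τ y * E = τ y := by rw [← h.inv E, ← h.mul, y1]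
    by_cases e : y + τ y = 0
    · refine ⟨θ • y, smul_ne_zero h0 y0, ?_, by rw [mul_smul_comm, y1], by rw [smul_mul_assoc, y2]⟩
      rw [h.smul, hθ, ← neg_eq_of_add_eq_zero_right e, smul_neg, neg_smul, neg_neg]
    · exact ⟨_, e, by rw [h.add, h.inv, add_comm], by rw [mul_add, y1, y3], by rw [add_mul, y2, y4]⟩
  obtain ⟨c, ca, c1, c2⟩ : ∃ c, c * a = E ∧ E * c = c ∧ c * τ E = c := by
    obtain ⟨p, e⟩ : ∃ p, a p o ≠ 0 := by
      by_contra! e
      refine a0 (a2 ▸ Matrix.ext fun i j => ?_)
      by_cases f : j = o
      · simp [hE, f, e]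
      · simp [hE, mul_single_apply_of_ne _ _ _ _ _ f]
    refine ⟨single o p (a p o)⁻¹ * τ E, ?_, ?_, by rw [mul_assoc, ← h.mul, EE]⟩
    · rw [mul_assoc, a1, ← a2, ← mul_assoc, hE, single_mul_mul_single, mul_one, a2,
        inv_mul_cancel₀ e]
    · rw [← mul_assoc, hE, single_mul_single_same, one_mul]
  have ac : a * τ c = τ E := by rw [← as, ← h.mul, ca]
  have cs : τ c = c := by
    have : τ c = E * τ c := by rw [← h.inv E, ← h.mul, c2]
    rw [this, ← ca, mul_assoc, ac, c2]
  rw [cs] at ac
  have jE : ∀ d : D, single o o d * E = single o o d ∧ E * single o o d = single o o d := fun d => by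
    simp [hE, single_mul_single_same]
  let s : D → D := fun d => (c * τ (single o o d) * a) o o
  have js : ∀ d, single o o (s d) = c * τ (single o o d) * a := fun d =>
    corner o (by rw [← mul_assoc, ← mul_assoc, c1]) (by rw [mul_assoc, a2])
  letI : StarRing D :=
    { star := s
      star_involutive := fun d => single_inj o (by
        rw [js, js, h.mul, h.mul, h.inv, as, cs]
        simp only [← mul_assoc, ca, (jE d).2]
        rw [mul_assoc, ca, (jE d).1])
      star_mul := fun x y => single_inj o (by
        rw [← ss o o o, js, js, js, ← ss o o o, h.mul]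
        simp only [mul_assoc]
        rw [← mul_assoc a, ac, ← mul_assoc (τ E), ← h.mul _ E, (jE x).1])
      star_add := fun x y => single_inj o (by
        rw [single_add, js, js, js, single_add, h.add, mul_add, add_mul]) }
  have st : ∀ d : D, star d = s d := fun _ => rfl
  let H : Matrix ι ι D := of fun p q => (single o p 1 * τ (single o q 1) * a : Matrix ι ι D) o o
  have r : ∀ p : ι, E * single o p (1 : D) = single o p 1 := fun p => by rw [hE, ss, one_mul]
  have jH : ∀ p q, single o o (H p q) = single o p 1 * τ (single o q 1) * a := fun p q =>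
    corner o (X := single o p 1 * τ (single o q 1) * a) (by rw [← mul_assoc, ← mul_assoc, r])
      (by rw [mul_assoc, a2])
  have hH : Hᴴ = H := Matrix.ext fun p q => single_inj o (by
    rw [conjTranspose_apply, st, js, jH, jH, h.mul, h.mul, h.inv, as]
    simp only [← mul_assoc, ca, r])
  have sm : ∀ f : ι → D, single o o (∑ l, f l) = ∑ l, single o o (f l) := fun f =>
    map_sum (singleAddMonoidHom o o) f _
  have key : ∀ X, τ X * H = H * Xᴴ := fun X => Matrix.ext fun p q => single_inj o (by
    rw [mul_apply, mul_apply, sm, sm]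
    simp only [← ss o o o, jH, conjTranspose_apply, st, js, ← mul_assoc]
    rw [← Finset.sum_mul, ← Finset.sum_mul, row_sum, mul_assoc _ (τ X), ← h.mul, ← row_sum o q X,
      show τ _ = _ from map_sum t _ _, Finset.mul_sum, Finset.sum_mul]
    refine Finset.sum_congr rfl fun l _ => ?_
    rw [mul_assoc _ a, ac, mul_assoc _ (τ E), ← h.mul, (jE _).1,
      mul_assoc _ (τ (single o l 1)), ← h.mul]
    rfl)
  refine ⟨this, ⟨fun k d => single_inj o ?_⟩, H, hH, ?_, key⟩
  · rw [st, st, js, ← smul_single, ← smul_single, js, h.smul, mul_smul_comm, smul_mul_assoc]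
  obtain ⟨p, q, e⟩ : ∃ p q, H p q ≠ 0 := by
    by_contra! e
    refine E0 (Matrix.ext fun q j => ?_)
    have f := congrArg (fun X => τ (X * c)) (jH o q)
    simp only [e, single_zero, zero_mul, z, mul_assoc, ac, ← h.mul, r] at f
    rw [h.mul, h.inv] at f
    simpa using congrFun (congrFun f.symm o) j
  refine IsUnit.of_mul_eq_one (∑ l, (τ (single l p (H p q)⁻¹))ᴴ * single q l 1) ?_
  simp only [Finset.mul_sum, ← mul_assoc, ← key, h.inv, single_mul_mul_single, mul_one,
    inv_mul_cancel₀ e, sum_single_one]

end Vale.Agent.P011LL
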