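import Vale.Agent.P011LL.Core
import Vale.Agent.P011LL.Inv
import Vale.Agent.P011LQ.Alg

/-!
P011 (helper30): the theorem of Landherr for forms of matrix algebras.
-/

open Module Matrix

set_option linter.all false

namespace Vale.Agent.P011LL

open Vale.Agent.P011.RP Vale.Agent.P011S Vale.Agent.P011LQ

theorem Cg.sub {α β : Type} [Fintype α] [DecidableEq α] [Fintype β]
    [DecidableEq β] {X Y : Matrix α α ℂ} (h : Cg X Y) (σ : β ≃ α) :
    Cg (X.submatrix σ σ) (Y.submatrix σ σ) := by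
  obtain ⟨Q, a, rfl⟩ := h
  refine ⟨Q.submatrix σ σ, (isUnit_iff_isUnit_det _).2 ?_, ?_⟩
  · rw [det_submatrix_equiv_self]
    exact (isUnit_iff_isUnit_det _).1 a
  · rw [conjTranspose_submatrix, submatrix_mul_equiv, submatrix_mul_equiv]

theorem Cg.smul {α : Type} [Fintype α] [DecidableEq α] {X Y : Matrix α α ℂ} (h : Cg X Y) (c : ℂ) :
    Cg (c • X) (c • Y) := by
  obtain ⟨Q, a, rfl⟩ := h
  exact ⟨Q, a, by rw [Matrix.mul_smul, Matrix.smul_mul]⟩

section gam

variable {K D : Type} [Field K] [StarRing K] [DivisionRing D] [StarRing D] [Algebra K D] {n m : ℕ}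
  (R : RData K D n)

theorem gam_mul (X H : Matrix (Fin m) (Fin m) D) : R.Gam (X * H) = R.Um X * R.Gam H := by
  ext ⟨i, p⟩ ⟨j, q⟩
  rw [R.Gam_apply, mul_apply (M := X), map_sum, Finset.sum_mul, Matrix.sum_apply,
    mul_apply (M := R.Um X), Fintype.sum_prod_type]
  refine Finset.sum_congr rfl fun l _ => ?_
  rw [map_mul, mul_assoc, mul_apply]
  rfl

theorem gam_conj (X : Matrix (Fin m) (Fin m) D) : R.Gam Xᴴ = (R.Gam X)ᴴ := by
  ext ⟨i, p⟩ ⟨j, q⟩
  rw [R.Gam_apply, conjTranspose_apply, R.star_f, conjTranspose_apply, R.Gam_apply,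
    ← conjTranspose_apply, conjTranspose_mul, R.hA]

end gam

variable {F K n : Type} [Field F] [Field K] [Algebra F K] [Fintype n] [DecidableEq n] [Nonempty n]
  {S : Subalgebra F (Matrix n n K)}

theorem cj (h : Frm S) {s d : ℕ} {D Ω : Type} [DivisionRing D] [Algebra F D] [Field Ω]
    (e : S ≃ₐ[F] Matrix (Fin s) (Fin s) D) (σ : n ≃ Fin s × Fin d) (w : K →+* Ω)
    (φ : D →+* Matrix (Fin d) (Fin d) Ω)
    (hφ : ∀ c, φ (algebraMap F D c) = scalar (Fin d) (w (algebraMap F K c))) :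
    ∃ g : GL n Ω, ∀ x : S, x.1.map w * g.1 =
      g.1 * (of fun a b : Fin s × Fin d => φ (e x a.1 b.1) a.2 b.2).submatrix σ σ :=
  h.conj w ((reindexAlgEquiv Ω Ω σ.symm).toRingEquiv.toRingHom.comp
    ((compRingEquiv (Fin s) (Fin d) Ω).toRingHom.comp (φ.mapMatrix.comp e.toRingEquiv.toRingHom)))
    fun c => Matrix.ext fun i j => by
      show φ (e (algebraMap F S c) (σ i).1 (σ j).1) (σ i).2 (σ j).2 = _
      rw [e.commutes, algebraMap_matrix_apply, apply_ite φ, hφ, map_zero]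
      have b : i = j ↔ (σ i).1 = (σ j).1 ∧ (σ i).2 = (σ j).2 :=
        σ.injective.eq_iff.symm.trans Prod.ext_iff
      by_cases a : (σ i).1 = (σ j).1 <;> simp [a, diagonal_apply, one_apply, b]

theorem land_frm [NumberField F] [StarRing F] [IsGalois F K] [IsAlgClosed K] (h : Frm S) {θ : F}
    (h0 : θ ≠ 0) (hθ : star θ = -θ) {τ : S → S} (hτ : Inv F τ)
    (ns : ∀ x : S, ∃ z : F, x.1.det = algebraMap F K z ∧ (τ x).1.det = algebraMap F K (star z))
    {u u' : S} (hu : τ u = u) (hu' : τ u' = u') (d' : u'.1.det ≠ 0)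
    (hd : ∃ z : F, z ≠ 0 ∧ u.1.det = algebraMap F K (z * star z) * u'.1.det)
    (hs : ∀ s : F →+* ℂ, (∀ z, s (star z) = star (s z)) → ∃ (w : K →+* ℂ) (A : Matrix n n ℂ),
      (∀ c, w (algebraMap F K c) = s c) ∧ IsUnit A ∧
      (∀ x : S, (τ x).1.map w * A = A * (x.1.map w)ᴴ) ∧ Cg (u.1.map w * A) (u'.1.map w * A)) :
    ∃ t t' : S, t * t' = 1 ∧ u = t * u' * τ t := by
  have : CharZero K := charZero_of_injective_algebraMap (algebraMap F K).injective
  obtain ⟨s, d, _, D, _, _, _, _, e, hsd, hdeg⟩ := h.wed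
  have := h.finrank.1
  have d0 : 0 < d := Nat.pos_of_mul_pos_left (hsd ▸ Fintype.card_pos)
  let σ : n ≃ Fin s × Fin d := Fintype.equivOfCardEq (by simp [hsd])
  obtain ⟨_, _, H, hH, uH, key⟩ := ex_star h0 hθ (τ := fun X => e (τ (e.symm X)))
    ⟨fun x y => by rw [map_add, hτ.add, map_add], fun x y => by rw [map_mul, hτ.mul, map_mul],
      fun x => by rw [e.symm_apply_apply, hτ.inv, e.apply_symm_apply],
      fun c x => by rw [map_smul, hτ.smul, map_smul]⟩
  replace key : ∀ x, e (τ x) * H = H * (e x)ᴴ := fun x => by simpa using key (e x)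
  obtain ⟨f⟩ := exists_split (K := F) (D := D) hdeg K
  have nd : ∀ x : S, redNorm f _ (e x) = x.1.det := fun x => by
    obtain ⟨g, hg⟩ := cj h e σ (RingHom.id K) f fun c => f.commutes c
    have := congrArg det (hg x)
    rw [det_mul, det_mul, det_submatrix_equiv_self, mul_comm] at this
    exact (mul_left_cancel₀ g.det_ne_zero this).symm
  have un : ∀ x : S, x.1.det ≠ 0 → IsUnit (e x) := fun x a => by
    obtain ⟨y, hy⟩ := (LinearMap.injective_iff_surjective (f := LinearMap.mulLeft F x)).1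
      (fun p q c => Subtype.ext (((isUnit_iff_isUnit_det _).2 a.isUnit).mul_right_injective
        (congrArg Subtype.val c))) 1
    exact IsUnit.of_mul_eq_one (e y) (by rw [← map_mul, ← map_one e]; exact congrArg e hy)
  have hm : ∀ x, τ x = x → (e x * H)ᴴ = e x * H := fun x a => by
    rw [conjTranspose_mul, hH, ← key, a]
  obtain ⟨z, z0, hz⟩ := hd
  have du : u.1.det ≠ 0 := hz ▸ mul_ne_zero ((_root_.map_ne_zero _).2
    (mul_ne_zero z0 (star_ne_zero.2 z0))) d'
  obtain ⟨T, ⟨v, rfl⟩, hT⟩ := landM ⟨θ, fun c => h0 (self_eq_neg.1 (c.symm.trans hθ))⟩ d0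
    hdeg f (fun T => by
      obtain ⟨x, rfl⟩ := e.surjective T
      obtain ⟨z, a, b⟩ := ns x
      have := congrArg (redNorm f _) (key x)
      rw [map_mul, map_mul, nd, b, mul_comm] at this
      exact ⟨z, (nd x).trans a, (mul_left_cancel₀ (uH.map (redNorm f _)).ne_zero this).symm⟩)
    (hm u' hu') ((un u' d').mul uH) (hm u hu) ((un u du).mul uH)
    ⟨z, z0, by rw [(redNorm f _).map_mul, (redNorm f _).map_mul, nd, nd, hz, mul_assoc]⟩ fun R => by
      obtain ⟨w, A, a, ⟨B, rfl⟩, b, c⟩ := hs R.s R.hs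
      obtain ⟨g, hg⟩ := cj h e σ w R.f fun c => by rw [a, R.hf]
      replace hg : ∀ x : S, x.1.map w * g.1 = g.1 * (R.Um (e x)).submatrix σ σ := hg
      let G := (R.Gam H).submatrix σ σ
      have k1 : ∀ x : S, x.1.map w * (g.1 * G * g.1ᴴ) =
          g.1 * (R.Gam (e x * H)).submatrix σ σ * g.1ᴴ := fun x => by
        rw [← mul_assoc, ← mul_assoc, hg, gam_mul, ← submatrix_mul_equiv _ _ _ σ, mul_assoc g.1]
      have k2 : ∀ x : S, (τ x).1.map w * (g.1 * G * g.1ᴴ) = g.1 * G * g.1ᴴ * (x.1.map w)ᴴ :=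
        fun x => by
          have e2 : g.1ᴴ * (x.1.map w)ᴴ = ((R.Um (e x)).submatrix σ σ)ᴴ * g.1ᴴ := by
            rw [← conjTranspose_mul, hg, conjTranspose_mul]
          rw [k1, key, ← hH, ← conjTranspose_mul, gam_conj, gam_mul, conjTranspose_mul,
            ← gam_conj, hH, mul_assoc (g.1 * G), e2, conjTranspose_submatrix,
            ← submatrix_mul_equiv _ _ _ σ]
          simp only [mul_assoc, G]
      obtain ⟨c', hc⟩ := h.scalar w (M := g.1 * G * g.1ᴴ * B⁻¹.1) fun x hx => by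
        have p := b (τ ⟨x, hx⟩)
        have q := k2 (τ ⟨x, hx⟩)
        rw [hτ.inv] at p q
        generalize g.1 * G * g.1ᴴ = A' at q ⊢
        rw [← mul_assoc (x.map w), q, mul_assoc, mul_assoc]
        congr 1
        rw [Units.inv_mul_eq_iff_eq_mul, ← mul_assoc, ← p, Units.mul_inv_cancel_right]
      rw [Units.mul_inv_eq_iff_eq_mul, smul_mul_assoc, one_mul] at hc
      have k3 : ∀ x : S, Cg ((R.Gam (e x * H)).submatrix σ σ) (c' • (x.1.map w * B.1)) := fun x =>
        ⟨g.1, g.isUnit, by rw [← k1, hc, Matrix.mul_smul]⟩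
      simpa using (((k3 u').trans (c.symm.smul c')).trans (k3 u).symm).sub σ.symm
  refine ⟨e.symm v.1, e.symm v⁻¹.1, by rw [← map_mul, Units.mul_inv, map_one],
    e.injective (uH.mul_right_cancel ?_)⟩
  rw [← hT, map_mul, map_mul, mul_assoc _ _ H, key, e.apply_symm_apply]
  simp only [mul_assoc]

end Vale.Agent.P011LL
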