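import Vale.Agent.P011.Three.Sig

/-!
P011 (helper30): the signature of complex hermitian matrices.
-/

open Module Matrix Filter
open scoped ComplexOrder Topology

set_option linter.all false

namespace Vale.Agent.P011LL

open Vale.Agent.P011.RP

section cg

variable {R ι : Type} [Ring R] [StarRing R] [Fintype ι] [DecidableEq ι] {X Y Z : Matrix ι ι R}

/-- congruent matrices -/
def Cg (X Y : Matrix ι ι R) : Prop := ∃ Q : Matrix ι ι R, IsUnit Q ∧ Q * X * Qᴴ = Y

theorem Cg.refl (X : Matrix ι ι R) : Cg X X := ⟨1, isUnit_one, by simp⟩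

theorem Cg.symm (h : Cg X Y) : Cg Y X := by
  obtain ⟨_, ⟨u, rfl⟩, rfl⟩ := h
  refine ⟨u⁻¹.1, u⁻¹.isUnit, ?_⟩
  rw [mul_assoc, mul_assoc, ← conjTranspose_mul, Units.inv_mul, conjTranspose_one, mul_one,
    Units.inv_mul_cancel_left]

theorem Cg.trans (h : Cg X Y) (h' : Cg Y Z) : Cg X Z := by
  obtain ⟨P, a, rfl⟩ := h
  obtain ⟨Q, b, rfl⟩ := h'
  exact ⟨Q * P, b.mul a, by simp only [conjTranspose_mul, mul_assoc]⟩

theorem Cg.unit (h : Cg X Y) (u : IsUnit X) : IsUnit Y := by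
  obtain ⟨P, a, rfl⟩ := h
  exact (a.mul u).mul ((isUnit_conjTranspose _).2 a)

theorem Cg.herm (h : Cg X Y) (u : Xᴴ = X) : Yᴴ = Y := by
  obtain ⟨P, -, rfl⟩ := h
  simp only [conjTranspose_mul, conjTranspose_conjTranspose, u, mul_assoc]

end cg

variable {ι : Type} [Fintype ι] [DecidableEq ι] {X Y T : Matrix ι ι ℂ}

/-- the number of positive directions -/
noncomputable def np (X : Matrix ι ι ℂ) : ℕ :=
  sSup {r | ∃ Y : Matrix (Fin r) ι ℂ, (Y * X * Yᴴ).PosDef}

theorem sub_gram {μ R : Type} [Ring R] [StarRing R] (e : μ → ι) (S G : Matrix ι ι R) :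
    S.submatrix e id * G * (S.submatrix e id)ᴴ = (S * G * Sᴴ).submatrix e e := by
  ext a b
  simp [Matrix.mul_apply]

theorem sub_pos {d : ι → ℝ} (hd : T * X * Tᴴ = diagonal fun i => (d i : ℂ)) :
    ∃ Y : Matrix (Fin (Fintype.card {i // 0 < d i})) ι ℂ, (Y * X * Yᴴ).PosDef := by
  let e := (Fintype.equivFin {i // 0 < d i}).symm
  refine ⟨T.submatrix (fun a => (e a).1) id, ?_⟩
  rw [sub_gram, hd, submatrix_diagonal _ (fun a => (e a).1) (Subtype.val_injective.comp e.injective)]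
  exact PosDef.diagonal fun a => Complex.zero_lt_real.2 (e a).2

theorem np_le (hT : IsUnit T) {d : ι → ℝ} (hd : T * X * Tᴴ = diagonal fun i => (d i : ℂ)) {r : ℕ}
    {Y : Matrix (Fin r) ι ℂ} (h : (Y * X * Yᴴ).PosDef) : r ≤ Fintype.card {i // 0 < d i} := by
  have a := count_le hT hd h
  have b := Fintype.card_subtype_compl fun i => d i ≤ 0
  simp only [not_le, Fintype.card_fin] at a b
  omega

theorem np_eq (hT : IsUnit T) {d : ι → ℝ} (hd : T * X * Tᴴ = diagonal fun i => (d i : ℂ)) :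
    np X = Fintype.card {i // 0 < d i} :=
  IsGreatest.csSup_eq ⟨sub_pos hd, fun _ ⟨_, h⟩ => np_le hT hd h⟩

theorem Cg.np (h : Cg X Y) : np X = np Y := by
  have k : ∀ {X Y : Matrix ι ι ℂ}, Cg X Y → ∀ r, (∃ Z : Matrix (Fin r) ι ℂ, (Z * Y * Zᴴ).PosDef) →
      ∃ Z : Matrix (Fin r) ι ℂ, (Z * X * Zᴴ).PosDef := fun ⟨Q, _, e⟩ r ⟨Z, hZ⟩ =>
    ⟨Z * Q, by simpa only [← e, conjTranspose_mul, Matrix.mul_assoc] using hZ⟩
  exact congrArg sSup (Set.ext fun r => ⟨k h.symm r, k h r⟩)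

theorem sgn_pos (η : ℤˣ) : (0 : ℝ) < ((η : ℤ) : ℝ) ↔ η = 1 := by
  rcases Int.units_eq_one_or η with rfl | rfl <;> simp

theorem cg_of_np (hX : X.IsHermitian) (uX : IsUnit X) (hY : Y.IsHermitian) (uY : IsUnit Y)
    (h : np X = np Y) : Cg X Y := by
  obtain ⟨S, η, a, b⟩ := exists_sign_diag hX uX
  obtain ⟨S', η', a', b'⟩ := exists_sign_diag hY uY
  rw [np_eq a b, np_eq a' b'] at h
  simp only [sgn_pos] at h
  let e := (Fintype.equivOfCardEq h).symm
  refine Cg.trans ?_ (Cg.symm ⟨S', a', b'⟩)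
  refine ⟨S.submatrix e.extendSubtype id, (isUnit_submatrix_equiv e.extendSubtype (.refl _)).2 a, ?_⟩
  rw [sub_gram, b, submatrix_diagonal_equiv]
  congr 1
  funext i
  have : η (e.extendSubtype i) = η' i := by
    by_cases c : η' i = 1
    · rw [c, e.extendSubtype_mem i c]
    · rw [(Int.units_eq_one_or _).resolve_left c,
        (Int.units_eq_one_or _).resolve_left (e.extendSubtype_not_mem i c)]
  simp only [Function.comp, this]

theorem np_add (hX : X.IsHermitian) (uX : IsUnit X) : np X + np (-X) = Fintype.card ι := by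
  obtain ⟨S, η, a, b⟩ := exists_sign_diag hX uX
  rw [np_eq a b, np_eq (d := fun i => -((η i : ℤ) : ℝ)) a (by
    rw [Matrix.mul_neg, Matrix.neg_mul, b, diagonal_neg]; simp)]
  have c := Fintype.card_subtype_compl fun i => η i = 1
  have d := Fintype.card_subtype_le fun i => η i = 1
  have e : ∀ u : ℤˣ, (0 : ℝ) < -((u : ℤ) : ℝ) ↔ ¬u = 1 := fun u => by
    rcases Int.units_eq_one_or u with rfl | rfl <;> simp
  simp only [sgn_pos, e]
  omega

theorem ev_near {α β : Type} [Fintype α] [Fintype β] {Y : Matrix α β ℂ} {ε : ℝ} (h : 0 < ε) :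
    ∀ᶠ U in 𝓝 Y, ∀ a b, ‖U a b - Y a b‖ < ε := by
  refine eventually_all.2 fun a => eventually_all.2 fun b => ?_
  have : Continuous fun U : Matrix α β ℂ => ‖U a b - Y a b‖ := by fun_prop
  exact this.continuousAt.eventually_lt continuousAt_const (by simpa using h)

theorem near_ev {α β : Type} [Fintype α] [Fintype β] {Y : Matrix α β ℂ} {p : Matrix α β ℂ → Prop}
    (h : ∀ᶠ U in 𝓝 Y, p U) : ∃ δ : ℝ, 0 < δ ∧ ∀ U, (∀ a b, ‖U a b - Y a b‖ < δ) → p U := by
  obtain ⟨δ, a, b⟩ := (Metric.eventually_nhds_iff (α := α → β → ℂ)).1 h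
  exact ⟨δ, a, fun U c => b ((dist_pi_lt_iff a).2 fun i => (dist_pi_lt_iff a).2 fun j => by
    rw [dist_eq_norm]; exact c i j)⟩

theorem np_ev (hX : X.IsHermitian) (uX : IsUnit X) :
    ∀ᶠ M in 𝓝 X, M.IsHermitian → IsUnit M → np X ≤ np M := by
  obtain ⟨S, η, a, b⟩ := exists_sign_diag hX uX
  obtain ⟨Z, hZ⟩ := sub_pos b
  obtain ⟨ε, c, d⟩ := posDef_near hZ
  have e : Continuous fun M : Matrix ι ι ℂ => Z * M * Zᴴ := by fun_prop
  filter_upwards [e.continuousAt.eventually (ev_near c)] with M f hM uM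
  obtain ⟨S', η', a', b'⟩ := exists_sign_diag hM uM
  rw [np_eq a b, np_eq a' b']
  exact np_le a' b' (d _ (isHermitian_mul_mul_conjTranspose _ hM) f)

/-- congruence classes are open -/
theorem cg_ev (hX : X.IsHermitian) (uX : IsUnit X) : ∀ᶠ M in 𝓝 X, M.IsHermitian → Cg M X := by
  have a : Continuous fun M : Matrix ι ι ℂ => M.det := by fun_prop
  filter_upwards [np_ev hX uX, continuous_neg.continuousAt.eventually (np_ev hX.neg uX.neg),
    a.continuousAt.eventually_ne ((isUnit_iff_isUnit_det _).1 uX).ne_zero] with M b c d hM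
  have uM := (isUnit_iff_isUnit_det _).2 d.isUnit
  have := b hM uM
  have := c hM.neg uM.neg
  have := np_add hX uX
  have := np_add hM uM
  exact cg_of_np hM uM hX uX (by omega)

/-- additivity -/
theorem np_diag {α : Type} [Fintype α] [DecidableEq α] {n : ℕ} {X : α → Matrix (Fin n) (Fin n) ℂ}
    (hX : ∀ a, (X a).IsHermitian) (uX : ∀ a, IsUnit (X a)) :
    np (cm (diagonal X)) = ∑ a, np (X a) := by
  choose S η a b using fun a => exists_sign_diag (hX a) (uX a)
  have o : cm (1 : Matrix α α (Matrix (Fin n) (Fin n) ℂ)) = 1 :=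
    map_one (compRingEquiv α (Fin n) ℂ)
  have u : IsUnit (cm (diagonal S)) := by
    choose v hv using fun i => (a i).exists_right_inv
    refine IsUnit.of_mul_eq_one (cm (diagonal v)) ?_
    rw [← cm_mul, diagonal_mul_diagonal, ← o]
    simp only [hv, diagonal_one]
  rw [np_eq (d := fun p => ((η p.1 p.2 : ℤ) : ℝ)) u]
  · simp only [fun i => np_eq (a i) (b i), Fintype.card_subtype, Finset.card_filter,
      Fintype.sum_prod_type]
  · rw [cm_conj, ← cm_mul, ← cm_mul, diagonal_conjTranspose, diagonal_mul_diagonal,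
      diagonal_mul_diagonal]
    ext ⟨i, p⟩ ⟨j, q⟩
    by_cases c : i = j
    · subst c
      simp only [cm, of_apply, diagonal_apply_eq, Pi.star_apply, star_eq_conjTranspose, b]
      simp [diagonal_apply]
    · simp [cm, diagonal_apply, c]

end Vale.Agent.P011LL
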